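import Vale.Agent.P011IE.Rp
import Vale.Agent.P183CH1.Root
import Mathlib.LinearAlgebra.RootSystem.GeckConstruction.Basis
import Mathlib.Algebra.Lie.Weights.IsSimple
import Mathlib.Analysis.Complex.Polynomial.Basic

/-!
The adjoint Chevalley datum of a root system.
-/

set_option autoImplicit false
set_option linter.all false

namespace Vale.Agent.P011IE

open Matrix Module Set Vale.Agent.P183CH RootPairing RootPairing.GeckConstruction

attribute [local instance 100] LieRing.ofAssociativeRing

theorem irr_of {ι M N ι' M' N' : Type} [AddCommGroup M] [Module ℂ M] [AddCommGroup N] [Module ℂ N]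
    [AddCommGroup M'] [Module ℂ M'] [AddCommGroup N'] [Module ℂ N'] {P : RootPairing ι ℂ M N}
    {Q : RootPairing ι' ℂ M' N'} (e : P.Equiv Q) [P.IsIrreducible] : Q.IsIrreducible := by
  have := IsIrreducible.nontrivial P
  have := (Equiv.weightEquiv P Q e).symm.nontrivial
  refine IsIrreducible.mk' _ fun q hq h0 => ?_
  have k := IsIrreducible.eq_top_of_invtSubmodule_reflection (P := P) (q.comap e.weightMap)
    (fun i x hx => by
      have h1 : Q.reflection (e.indexEquiv i) (e.weightMap x) ∈ q := hq _ hx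
      show e.weightMap (P.reflection i x) ∈ q
      convert h1 using 1
      rw [P.reflection_apply, Q.reflection_apply, map_sub, map_smul, Hom.root_weightMap_apply]
      congr 2
      have := LinearMap.congr_fun (Hom.weight_coweight_transpose_apply P Q
        (Q.coroot (e.indexEquiv i)) e.toHom) x
      rw [Hom.coroot_coweightMap_apply, e.indexEquiv.symm_apply_apply] at this
      exact this.symm) fun c => h0 ((Submodule.eq_bot_iff q).2 fun y hy => by
      obtain ⟨x, rfl⟩ := e.bijective_weightMap.2 y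
      rw [(Submodule.eq_bot_iff _).1 c x hy, map_zero])
  refine top_unique fun y _ => ?_
  obtain ⟨x, rfl⟩ := e.bijective_weightMap.2 y
  exact k.ge trivial

/-- integral multiples -/
def Z (n : ℕ) : AddSubgroup ℂ := AddSubgroup.zmultiples (n : ℂ)

theorem Z.mul {n : ℕ} {x : ℂ} (h : x ∈ Z n) (m : ℕ) : x * m ∈ Z (m * n) := by
  obtain ⟨z, rfl⟩ := h
  exact ⟨z, by simp only [zsmul_eq_mul]; push_cast; ring⟩

theorem Z.dvd {n m : ℕ} {x : ℂ} (h : x ∈ Z n) (c : m ∣ n) : x ∈ Z m := by
  obtain ⟨z, rfl⟩ := h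
  obtain ⟨d, rfl⟩ := c
  exact ⟨z * d, by simp only [zsmul_eq_mul]; push_cast; ring⟩

theorem Z.one {J : Type} [DecidableEq J] (a c : J) : (1 : Matrix J J ℂ) a c ∈ Z 1 := by
  rw [one_apply]
  split_ifs
  exacts [⟨1, by simp⟩, zero_mem _]

section

variable {ι M N : Type} [Fintype ι] [DecidableEq ι] [AddCommGroup M] [Module ℂ M] [AddCommGroup N]
  [Module ℂ N] {P : RootPairing ι ℂ M N} [P.IsReduced] [P.IsCrystallographic] [P.IsIrreducible]
  [P.IsRootSystem] {b : P.Base}

theorem pow_r (i : b.support) (a : b.support ⊕ ι) (m : ℕ) : ∀ j : ι, j ≠ P.reflectionPerm i i →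
    (e i ^ m) a (.inr j) ∈ Z ((P.chainBotCoeff i j + 1).ascFactorial m) := by
  induction m with
  | zero => exact fun j _ => Z.one _ _
  | succ m ih =>
    intro j hj
    rw [pow_succ, mul_apply, Fintype.sum_sum_type]
    refine add_mem (sum_mem fun k _ => ?_) (sum_mem fun k _ => ?_)
    · simp [e, hj]
    by_cases c : P.root k = P.root i + P.root j
    · have : IsAddTorsionFree M := .of_isTorsionFree ℂ M
      have li := P.linearIndependent_of_add_mem_range_root ⟨k, c⟩
      have h1 := Z.mul (ih k (by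
        rintro rfl
        rw [root_reflectionPerm, P.reflection_apply_self] at c
        exact two_ne_zero (LinearIndependent.pair_iff.1 li 2 1 (by
          rw [two_smul, one_smul, add_assoc, ← c, add_neg_cancel])).1)) (P.chainBotCoeff i j + 1)
      rw [chainBotCoeff_of_add li (c.trans (add_comm _ _)), Nat.succ_ascFactorial,
        ← Nat.ascFactorial_succ] at h1
      simpa [e, c] using h1
    · simp [e, c]

theorem col_i (i : b.support) (a : b.support ⊕ ι) (m : ℕ) : (e i ^ (m + 1)) a (.inr i) = 0 := by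
  rw [pow_succ, mul_apply, Fintype.sum_sum_type, Finset.sum_eq_zero, Finset.sum_eq_zero, add_zero]
  · intro k _
    have : IsAddTorsionFree M := .of_isTorsionFree ℂ M
    have : P.root k ≠ P.root i + P.root i := fun c =>
      P.nsmul_notMem_range_root (n := 2) ⟨k, c.trans (two_smul ℕ _).symm⟩
    simp [e, this]
  · intro k _
    have : (i : ι) ≠ P.reflectionPerm i i := P.ne_neg i
    simp [e, this]

theorem col_l (i c : b.support) (a : b.support ⊕ ι) (m : ℕ) :
    (e i ^ (m + 1)) a (.inl c) = (e i ^ m) a (.inr i) * (b.cartanMatrix i c).natAbs := by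
  rw [pow_succ, mul_apply, Fintype.sum_sum_type]
  simp [e]

theorem pow_e (i : b.support) (m : ℕ) (a c : b.support ⊕ ι) : (e i ^ m) a c ∈ Z m.factorial := by
  obtain c | j := c
  · obtain _ | _ | m := m
    · exact Z.one _ _
    · rw [col_l]
      exact Z.dvd (Z.mul (Z.one _ _) _) (one_dvd _)
    · rw [col_l, col_i, zero_mul]
      exact zero_mem _
  by_cases hj : j = P.reflectionPerm i i
  swap
  · exact Z.dvd (pow_r i a m j hj) (Nat.factorial_dvd_ascFactorial _ _)
  subst hj
  obtain _ | m := m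
  · exact Z.one _ _
  have : (e i ^ (m + 1)) a (.inr (P.reflectionPerm i i)) = (e i ^ m) a (.inl i) := by
    rw [pow_succ, mul_apply, Fintype.sum_sum_type]
    simp [e, P.ne_zero]
  rw [this]
  obtain _ | _ | m := m
  · exact Z.one _ _
  · rw [col_l, b.cartanMatrix_apply_same]
    exact Z.mul (Z.one _ _) 2
  · rw [col_l, col_i, zero_mul]
    exact zero_mem _

theorem pow_f (i : b.support) (m : ℕ) (a c : b.support ⊕ ι) : (f i ^ m) a c ∈ Z m.factorial := by
  have h1 : f i ^ m = ω b * e i ^ m * ω b := by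
    induction m with
    | zero => simp
    | succ m ih => rw [pow_succ, ih, mul_assoc, ω_mul_f, pow_succ]; simp only [mul_assoc]
  have h2 : ∀ a c, ω b a c = 0 ∨ ω b a c = 1 := by
    rintro (a | a) (c | c) <;> simp [ω, one_apply, em']
  rw [h1, mul_apply]
  refine sum_mem fun k _ => ?_
  rw [mul_apply, Finset.sum_mul]
  refine sum_mem fun l _ => ?_
  rcases h2 a l with u | u <;> rcases h2 k c with v | v <;> simp [u, v, pow_e]

theorem ex_dp {J : Type} [Fintype J] [DecidableEq J] {n : ℕ} (η : J ≃ Fin n) {x : Matrix J J ℂ}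
    (h : ∀ m a c, (x ^ m) a c ∈ Z m.factorial) : ∃ E : ℕ → Matrix (Fin n) (Fin n) ℤ, ∀ m,
      reindexAlgEquiv ℂ ℂ η x ^ m = m.factorial • (E m).map (Int.cast : ℤ → ℂ) := by
  choose E hE using h
  refine ⟨fun m => of fun a c => E m (η.symm a) (η.symm c), fun m => ?_⟩
  rw [← map_pow]
  ext a c
  refine (hE m _ _).symm.trans ?_
  simp [mul_comm]

variable {r : ℕ} (ε : Fin r ≃ b.support)

/-- the basis -/
noncomputable def bs : LieAlgebra.Basis (Fin r) (cartanSubalgebra' b) where
  A := b.cartanMatrix.submatrix ε ε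
  h i := (basis b).h (ε i)
  e i := (basis b).e (ε i)
  f i := (basis b).f (ε i)
  cartan_eq_lieSpan := (basis b).cartan_eq_lieSpan.trans
    (congrArg _ (ε.surjective.range_comp (basis b).h).symm)
  span_ef := by
    rw [← (basis b).span_ef, ← ε.surjective.range_comp (basis b).e,
      ← ε.surjective.range_comp (basis b).f]
    rfl
  linInd := (basis b).linInd.comp ε ε.injective
  nondegen := Matrix.nondegenerate_of_det_ne_zero (by
    rw [det_submatrix_equiv_self]; exact b.cartanMatrix_nondegenerate.det_ne_zero)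
  sl2 i := (basis b).sl2 _
  lie_h_h i j := (basis b).lie_h_h _ _
  lie_h_e i j := (basis b).lie_h_e _ _
  lie_h_f i j := (basis b).lie_h_f _ _
  lie_e_f_ne i j c := (basis b).lie_e_f_ne _ _ (ε.injective.ne c)

/-- the datum -/
noncomputable def gk : Chev :=
  let η := Fintype.equivFin (b.support ⊕ ι)
  { n := _
    r := r
    L := lieAlgebra b
    simple := LieAlgebra.IsKilling.isSimple_iff_isIrreducible.1 (irr_of (equivRootSystem b))
    H := _
    b := bs ε
    φ := (reindexAlgEquiv ℂ ℂ η).toLinearMap.comp (lieAlgebra b).toSubmodule.subtype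
    inj := (reindexAlgEquiv ℂ ℂ η).injective.comp Subtype.val_injective
    lie := fun u v => by
      show reindexAlgEquiv ℂ ℂ η (u.1 * v.1 - v.1 * u.1) = _
      rw [map_sub, map_mul, map_mul]
      rfl
    μ := fun i a => Sum.elim 0 (P.pairingIn ℤ · (ε i)) (η.symm a)
    E := fun i => (ex_dp η (pow_e (ε i))).choose
    F := fun i => (ex_dp η (pow_f (ε i))).choose
    h_eq := fun i => by
      show reindexAlgEquiv ℂ ℂ η (h (ε i)) = _
      rw [h_eq_diagonal, reindexAlgEquiv_apply, reindex_apply, submatrix_diagonal_equiv]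
      congr 1
      funext a
      simp only [Function.comp]
      cases η.symm a <;> simp
    e_pow := fun i => (ex_dp η (pow_e (ε i))).choose_spec
    f_pow := fun i => (ex_dp η (pow_f (ε i))).choose_spec }

end

theorem rs_eq {r : ℕ} {A A' : Matrix (Fin r) (Fin r) ℤ} {Φ Φ' : Finset (Fin r → ℤ)}
    (h : RS.Ok ⟨r, A, Φ⟩) (h' : RS.Ok ⟨r, A', Φ'⟩) (e : A = A') : (⟨r, A, Φ⟩ : RS) = ⟨r, A', Φ'⟩ := by
  subst e
  have k : ∀ {Φ Φ' : Finset (Fin r → ℤ)}, RS.Ok ⟨r, A, Φ⟩ → RS.Ok ⟨r, A, Φ'⟩ → Φ ⊆ Φ' :=
    fun h h' γ hγ => by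
      obtain ⟨l, i, rfl⟩ := h.conj γ hγ
      clear hγ
      induction l with
      | nil => exact h'.simple i
      | cons j l ih => exact h'.refl j _ ih
  rw [subset_antisymm (k h h') (k h' h)]

/-- every root system belongs to a Chevalley datum -/
theorem ex_chev {R : RS} (hR : R.Ok) : ∃ D : Chev, D.R = R := by
  classical
  letI := rp_cry hR
  letI := rp_sys hR
  letI := rp_red hR
  letI := rp_irr hR
  obtain ⟨b, ε, h⟩ := ex_base hR
  exact ⟨gk ε, rs_eq (r := R.r) (A' := R.A) (Φ' := R.Φ) (Chev.R_ok (gk ε)) hR (Matrix.ext h)⟩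

end Vale.Agent.P011IE
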