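import Vale.Agent.P011IE.Geck
import Vale.Agent.P011UZG.Mk
import Vale.Agent.P011UI.Rep

/-!
Every root system belongs to a simply connected Chevalley datum.
-/

set_option autoImplicit false
set_option linter.all false

namespace Vale.Agent.P011IE

open Matrix Vale.Agent.P183CH Vale.Agent.P183CH.Chev Vale.Agent.P011U Vale.Agent.P011UI

variable {D : Chev}

/-- minuscule weights -/
def Mi (D : Chev) (μ : D.Q) : Prop := ∀ (l : List (Fin D.r)) i, |l.foldr D.sw μ i| ≤ 1

theorem Mi.sw {μ : D.Q} (h : Mi D μ) (j : Fin D.r) : Mi D (D.sw j μ) := fun l i => by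
  simpa [List.foldr_append] using h (l ++ [j]) i

theorem mi_fin : Set.Finite {μ | Mi D μ} :=
  (Set.Finite.pi fun _ => Set.finite_Icc (-1 : ℤ) 1).subset fun μ h i _ => abs_le.1 (h [] i)

/-- weights as elements of the root lattice -/
def nu (μ : D.Q) : D.R.Q := μ ᵥ* D.A.adjugate

theorem nu_pr (μ : D.Q) (i : Fin D.r) : D.R.pr (nu μ) i = D.A.det * μ i := by
  show (μ ᵥ* D.A.adjugate ᵥ* D.A) i = _
  rw [vecMul_vecMul, adjugate_mul, vecMul_smul, vecMul_one]
  rfl

theorem nu_sub (μ : D.Q) (c : ℤ) (i : Fin D.r) :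
    nu (μ - c • (D.α i ᵥ* D.A)) = nu μ + (-(c * D.A.det)) • D.R.α i := by
  rw [nu, sub_vecMul, smul_vecMul, vecMul_vecMul, mul_adjugate, vecMul_smul, vecMul_one, smul_smul,
    neg_smul, sub_eq_add_neg]
  rfl

/-- the norm -/
noncomputable def nm (μ : D.Q) : ℤ := D.R.B (nu μ) (nu μ)

theorem nm_nonneg (μ : D.Q) : 0 ≤ nm μ := by
  rcases eq_or_ne (nu μ) 0 with e | e
  · have := (R_ok D).B_smul 0 (nu μ) (nu μ)
    rw [zero_smul, zero_mul, ← e] at this
    exact this.ge
  · exact ((R_ok D).B_pos e).le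

theorem nm_sub (μ : D.Q) (c : ℤ) (i : Fin D.r) : nm (μ - c • (D.α i ᵥ* D.A)) =
    nm μ - D.A.det ^ 2 * D.R.B (D.R.α i) (D.R.α i) * (c * (μ i - c)) := by
  have h := R_ok D
  have h1 := h.pr_B (nu μ) i
  rw [nu_pr] at h1
  rw [nm, nu_sub, h.B_add, h.B_smul, h.B_comm (nu μ), h.B_comm (D.R.α i), h.B_add, h.B_add, h.B_smul,
    h.B_smul, h.B_comm (D.R.α i) (nu μ), nm]
  linear_combination (c * D.A.det) * h1

theorem nm_sw (μ : D.Q) (i : Fin D.r) : nm (D.sw i μ) = nm μ := by
  rw [sw, nm_sub, sub_self, mul_zero, mul_zero, sub_zero]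

theorem span_mi {S : Submodule ℤ D.Q} (h1 : ∀ μ, Mi D μ → μ ∈ S) (h2 : ∀ i, D.α i ᵥ* D.A ∈ S) :
    S = ⊤ := by
  have k : ∀ (n : ℕ) (μ : D.Q), nm μ < n → μ ∈ S := fun n => by
    induction n with
    | zero => exact fun μ h => absurd (nm_nonneg μ) (not_le.2 h)
    | succ n ih =>
      intro μ h
      by_cases c : Mi D μ
      · exact h1 μ c
      obtain ⟨l, i, c⟩ : ∃ (l : List (Fin D.r)) (i : Fin D.r), 1 < |l.foldr D.sw μ i| := by
        simpa [Mi] using c
      have a : nm (l.foldr D.sw μ) = nm μ ∧ (l.foldr D.sw μ ∈ S → μ ∈ S) := by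
        clear c
        induction l with
        | nil => exact ⟨rfl, id⟩
        | cons j l ih => exact ⟨(nm_sw _ j).trans ih.1, fun c => ih.2
            ((S.sub_mem_iff_left (S.smul_mem _ (h2 j))).1 c)⟩
      generalize l.foldr D.sw μ = ν at a c
      have p : 0 < D.A.det ^ 2 * D.R.B (D.R.α i) (D.R.α i) :=
        mul_pos (sq_pos_of_ne_zero det_ne) ((R_ok D).B_α_pos i)
      obtain ⟨s, hs⟩ : ∃ s : ℤ, 0 < s * (ν i - s) := by
        rcases lt_abs.1 c with e | e
        exacts [⟨1, by omega⟩, ⟨-1, by omega⟩]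
      refine a.2 ((S.sub_mem_iff_left (S.smul_mem s (h2 i))).1 (ih _ ?_))
      have := mul_pos p hs
      rw [nm_sub, a.1]
      push_cast at h
      omega
  exact top_unique fun μ _ => k ((nm μ).toNat + 1) μ (by have := nm_nonneg μ; push_cast; omega)

section
variable {J : Type} [Fintype J] [DecidableEq J]

open Classical in
/-- partial permutation matrices -/
noncomputable def pm (p : J → Prop) (σ : J → J) : Matrix J J ℤ :=
  of fun a b => if p b ∧ a = σ b then 1 else 0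

theorem pm_mul (p q : J → Prop) (σ τ : J → J) :
    pm p σ * pm q τ = pm (fun b => q b ∧ p (τ b)) fun b => σ (τ b) := by
  ext a b
  rw [mul_apply, Finset.sum_eq_single (τ b) (fun c _ h => by simp [pm, h]) (by simp)]
  by_cases h : q b <;> by_cases h' : p (τ b) ∧ a = σ (τ b) <;> simp [pm, h, h']

theorem pm_congr {p q : J → Prop} {σ τ : J → J} (h : ∀ b, p b ↔ q b) (h' : ∀ b, p b → σ b = τ b) :
    pm p σ = pm q τ := by
  ext a b
  by_cases c : p b
  · simp [pm, c, (h b).1 c, h' b c]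
  · simp [pm, c, mt (h b).2 c]

theorem pm_zero {p : J → Prop} {σ : J → J} (h : ∀ b, ¬p b) : pm p σ = 0 := by
  ext a b
  simp [pm, h]

theorem pm_ne {p : J → Prop} {σ : J → J} {a b : J} (h : pm p σ a b ≠ 0) : p b ∧ a = σ b := by
  by_contra c
  exact h (if_neg c)

end

theorem ex_min (D : Chev) : ∃ (m : ℕ) (e f : Fin D.r → Matrix (Fin m) (Fin m) ℤ)
    (μ : Fin D.r → Fin m → ℤ), (∀ i, e i * e i = 0) ∧ (∀ i, f i * f i = 0) ∧
    (∀ i, e i * f i - f i * e i = diagonal (μ i)) ∧ (∀ i j, i ≠ j → e i * f j = f j * e i) ∧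
    (∀ i a b, e i a b ≠ 0 → ∀ j, μ j a = μ j b + D.A i j) ∧
    (∀ i a b, f i a b ≠ 0 → ∀ j, μ j a = μ j b - D.A i j) ∧
    ∀ ν, Mi D ν → ∃ a, (fun i => μ i a) = ν := by
  have := (mi_fin (D := D)).fintype
  let η := Fintype.equivFin {μ | Mi D μ}
  obtain ⟨m, w, σ, h1, h2, h3, h4⟩ : ∃ (m : ℕ) (w : Fin m → D.Q) (σ : Fin D.r → Fin m → Fin m),
      Function.Injective w ∧ (∀ a i, |w a i| ≤ 1) ∧ (∀ i a, w (σ i a) = D.sw i (w a)) ∧
      ∀ ν, Mi D ν → ∃ a, w a = ν :=
    ⟨_, fun a => (η.symm a).1, fun i a => η ⟨_, Mi.sw (η.symm a).2 i⟩,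
      Subtype.val_injective.comp η.symm.injective, fun a => (η.symm a).2 [],
      fun i a => by simp, fun ν h => ⟨η ⟨ν, h⟩, by simp⟩⟩
  have h5 : ∀ i a j, w (σ i a) j = w a j - w a i * D.A i j := fun i a j => by rw [h3, sw_apply]
  have h6 : ∀ i a, σ i (σ i a) = a := fun i a => h1 (by rw [h3, h3, sw_sw])
  refine ⟨m, fun i => pm (w · i = -1) (σ i), fun i => pm (w · i = 1) (σ i), fun i a => w a i,
    fun i => ?_, fun i => ?_, fun i => ?_, fun i j c => ?_, fun i a b c j => ?_, fun i a b c j => ?_,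
    h4⟩
  · rw [pm_mul]
    exact pm_zero fun b ⟨u, v⟩ => by rw [h5, Chev.diag] at v; omega
  · rw [pm_mul]
    exact pm_zero fun b ⟨u, v⟩ => by rw [h5, Chev.diag] at v; omega
  · rw [pm_mul, pm_mul]
    ext a b
    have := abs_le.1 (h2 b i)
    simp only [Matrix.sub_apply, pm, of_apply, h5, h6, Chev.diag, diagonal_apply]
    rcases eq_or_ne a b with rfl | c
    · obtain u | u | u : w a i = -1 ∨ w a i = 0 ∨ w a i = 1 := by omega
      all_goals simp [u]
    · simp [c]
  · have n1 : D.A i j ≤ 0 := (R_ok D).A_nonpos c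
    have n2 : D.A j i ≤ 0 := (R_ok D).A_nonpos c.symm
    have n3 : D.A i j = 0 ↔ D.A j i = 0 := (R_ok D).A_zero_comm
    rw [pm_mul, pm_mul]
    refine pm_congr (fun b => ?_) fun b ⟨u, v⟩ => h1 (funext fun l => ?_)
    · have a1 := abs_le.1 (h2 b i)
      have a2 := abs_le.1 (h2 b j)
      rw [h5, h5]
      constructor <;> rintro ⟨u, v⟩ <;> rw [u] at v
      · have : w b i = -1 := by omega
        exact ⟨this, by rw [this]; omega⟩
      · have : w b j = 1 := by omega
        exact ⟨this, by rw [this]; omega⟩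
    · have a1 := abs_le.1 (h2 b i)
      rw [h5, u] at v
      have z : D.A j i = 0 := by omega
      simp only [h5, z, n3.2 z]
      ring
  · obtain ⟨u, rfl⟩ := pm_ne c
    beta_reduce
    rw [h5, u]
    ring
  · obtain ⟨u, rfl⟩ := pm_ne c
    beta_reduce
    rw [h5, u]
    ring

theorem bd_ne {n m : ℕ} {x : Matrix (Fin n) (Fin n) ℤ} {y : Matrix (Fin m) (Fin m) ℤ}
    {P : Fin (n + m) → Fin (n + m) → Prop} (hx : ∀ a b, x a b ≠ 0 → P (a.castAdd m) (b.castAdd m))
    (hy : ∀ a b, y a b ≠ 0 → P (a.natAdd n) (b.natAdd n)) (a b : Fin (n + m))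
    (h : bd ℤ (x, y) a b ≠ 0) : P a b := by
  induction a using Fin.addCases <;> induction b using Fin.addCases
  · exact hx _ _ fun c => h ((bd_fst (x, y) _ _).trans c)
  · simp [bd_val] at h
  · simp [bd_val] at h
  · exact hy _ _ fun c => h ((bd_snd (x, y) _ _).trans c)

attribute [local instance 100] LieRing.ofAssociativeRing in
theorem ex_sc (D : Chev) : ∃ D' : Chev, SC D' ∧ D'.R = D.R := by
  obtain ⟨m, e, f, μ, ee, ff, h1, h2, h3, h4, h5⟩ := ex_min D
  let μ' : Fin D.r → Fin (D.n + m) → ℤ := fun i => Sum.elim (D.μ i) (μ i) ∘ finSumFinEquiv.symm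
  have m1 : ∀ i a, μ' i (a.castAdd m) = D.μ i a := fun i a => by simp [μ']
  have m2 : ∀ i a, μ' i (Fin.natAdd D.n a) = μ i a := fun i a => by simp [μ']
  have h : P011UZG.Mn D.A (fun i => bd ℤ (D.E i 1, e i)) (fun i => bd ℤ (D.F i 1, f i)) μ' :=
    { ef := fun i => by
        rw [← map_mul, ← map_mul, ← map_sub, Prod.mk_mul_mk, Prod.mk_mul_mk, Prod.mk_sub_mk, h1,
          show D.E i 1 * D.F i 1 - D.F i 1 * D.E i 1 = diagonal (D.μ i) from ef i, bd_val,
          fromBlocks_diagonal, submatrix_diagonal_equiv]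
      ef' := fun i j c => by
        rw [← map_mul, ← map_mul, Prod.mk_mul_mk, Prod.mk_mul_mk, h2 i j c]
        congr 2
        refine ct_inj (k := ℂ) (sub_eq_zero.1 ?_)
        rw [map_mul, map_mul, ← φ_e, ← φ_f, ← D.lie, D.b.lie_e_f_ne i j c, map_zero]
      he := fun i => bd_ne (fun a b c j => by
          rw [m1, m1, ← α_pr]; exact congrFun (dg_e i a b c) j) fun a b c j => by
        rw [m2, m2, h3 i a b c]
      hf := fun i => bd_ne (fun a b c j => by
          rw [m1, m1, ← α_pr, sub_eq_add_neg, ← Pi.neg_apply, ← neg_vecMul]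
          exact congrFun (dg_f i a b c) j) fun a b c j => by
        rw [m2, m2, h4 i a b c]
      sc := span_mi (fun ν c => by
          obtain ⟨a, rfl⟩ := h5 ν c
          exact Submodule.subset_span ⟨Fin.natAdd D.n a, funext fun i => m2 i a⟩) fun i => by
        obtain ⟨a, b, c⟩ := exists_e (D := D) i
        rw [← sub_eq_of_eq_add' c]
        exact sub_mem (Submodule.subset_span ⟨a.castAdd m, funext fun i => m1 i a⟩)
          (Submodule.subset_span ⟨b.castAdd m, funext fun i => m1 i b⟩) }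
  have k : ∀ {E : ℕ → D.Mat ℤ} {x : Matrix (Fin m) (Fin m) ℤ}, DP E → x * x = 0 → ∀ l : ℕ,
      ct ℂ (bd ℤ (E 1, x)) ^ l = l.factorial •
        (bd ℤ (E l, if l = 0 then 1 else if l = 1 then x else 0)).map (Int.cast : ℤ → ℂ) := by
    intro E x hE hx l
    show _ = _ • ct ℂ _
    rw [← map_pow, ← map_pow, ← map_nsmul, ← map_nsmul, Prod.pow_mk, hE.pow, Prod.smul_mk]
    congr 3
    exact ct_inj (k := ℂ) (by rw [map_pow, P011UJ.pow_eq hx, map_nsmul]; rfl)
  let D' : Chev :=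
    { n := D.n + m
      r := D.r
      L := P011UJ.LL (fun i => bd ℤ (D.E i 1, e i)) (fun i => bd ℤ (D.F i 1, f i))
      simple := P011UZG.simple h
      H := _
      b := P011UZG.bas h
      φ := (P011UJ.LL _ _).toSubmodule.subtype
      inj := Subtype.val_injective
      lie := fun _ _ => rfl
      μ := μ'
      E := fun i l => bd ℤ (D.E i l, if l = 0 then 1 else if l = 1 then e i else 0)
      F := fun i l => bd ℤ (D.F i l, if l = 0 then 1 else if l = 1 then f i else 0)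
      h_eq := P011UZG.h_val h
      e_pow := fun i => k (dp_e i) (ee i)
      f_pow := fun i => k (dp_f i) (ff i) }
  exact ⟨D', h.sc, rs_eq (r := D.r) (R_ok D') (R_ok D) rfl⟩

/-- **Every root system belongs to a simply connected Chevalley datum.** -/
theorem exc {R : RS} (hR : R.Ok) : ∃ D : Chev, SC D ∧ D.R = R := by
  obtain ⟨D, rfl⟩ := ex_chev hR
  exact ex_sc D

end Vale.Agent.P011IE
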