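import Vale.Agent.P011I.IF
import Vale.Agent.P011IE.Min

/-!
The existence row of the recognition interfaces.
-/

set_option autoImplicit false
set_option linter.all false

namespace Vale.Agent.P011IE

theorem exc_row : P011I.EXC := fun R hR => by
  obtain ⟨D, h, rfl⟩ := exc hR
  exact ⟨D, Equiv.refl _, h, fun _ _ => rfl⟩

end Vale.Agent.P011IE
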