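import Vale.Agent.P183CH2.Weyl
import Mathlib.LinearAlgebra.RootSystem.BaseExists
import Mathlib.LinearAlgebra.RootSystem.CartanMatrix

/-!
A combinatorial root system gives a root system in the sense of Mathlib.
-/

set_option autoImplicit false
set_option linter.all false

namespace Vale.Agent.P011IE

open Matrix Module Set Vale.Agent.P183CH Vale.Agent.P183CH.RS

variable {R : RS} (hR : R.Ok)
include hR

theorem ex_co (γ : R.Φ) : ∃ c : R.Q →ₗ[ℤ] ℤ, (∀ δ, c δ * R.B γ γ = 2 * R.B δ γ) ∧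
    ∀ δ ∈ R.Φ, δ - c δ • γ.1 ∈ R.Φ := by
  obtain ⟨γ, hγ⟩ := γ
  obtain ⟨w, hw, i, rfl⟩ := hR.exists_conj hγ
  refine ⟨(R.prL i).comp (w⁻¹ : R.Aut).toLinearMap, fun δ => ?_, fun δ hδ => ?_⟩
  · show R.pr ((w⁻¹ : R.Aut) δ) i * R.B (w _) (w _) = 2 * R.B δ (w _)
    rw [hR.B_inv hw, hR.pr_B, ← hR.B_inv hw, app_inv]
  · have := hR.map_mem hw (hR.map_mem (sE_mem_W i) (hR.map_mem (inv_mem hw) hδ))
    rwa [hR.sE_eq, map_sub, map_smul, app_inv] at this

/-- the coroot -/
noncomputable def co (γ : R.Φ) : R.Q →ₗ[ℤ] ℤ := (ex_co hR γ).choose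

theorem co_B (γ : R.Φ) (δ : R.Q) : co hR γ δ * R.B γ γ = 2 * R.B δ γ := (ex_co hR γ).choose_spec.1 δ

theorem co_mem (γ : R.Φ) {δ : R.Q} (h : δ ∈ R.Φ) : δ - co hR γ δ • γ.1 ∈ R.Φ :=
  (ex_co hR γ).choose_spec.2 δ h

theorem BB (γ : R.Φ) : 0 < R.B γ γ := hR.B_pos (hR.sign _ γ.2).1

theorem co_self (γ : R.Φ) : co hR γ γ = 2 := mul_right_cancel₀ (BB hR γ).ne' (co_B hR γ γ)

/-- the simple roots -/
def al (i : Fin R.r) : R.Φ := ⟨R.α i, hR.simple i⟩

theorem co_al (i : Fin R.r) (δ : R.Q) : co hR (al hR i) δ = R.pr δ i :=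
  mul_right_cancel₀ (hR.B_α_pos i).ne' ((co_B hR _ δ).trans (hR.pr_B δ i).symm)

omit hR in
/-- complex coordinates -/
def io (δ : R.Q) : Fin R.r → ℂ := fun j => (δ j : ℂ)

omit hR in
theorem io_inj : Function.Injective (io (R := R)) := fun _ _ h => funext fun j =>
  Int.cast_injective (congrFun h j)

omit hR in
theorem io_sub (γ δ : R.Q) (m : ℤ) : io (γ - m • δ) = io γ - (m : ℂ) • io δ := by
  ext j
  simp [io]

omit hR in
theorem io_α (i : Fin R.r) : io (R.α i) = Pi.single i 1 := by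
  ext j
  simp [io, α, Pi.single_apply]

/-- the complex coroot -/
noncomputable def cc (γ : R.Φ) : Dual ℂ (Fin R.r → ℂ) :=
  Fintype.linearCombination ℂ fun j => (co hR γ (R.α j) : ℂ)

theorem cc_io (γ : R.Φ) (δ : R.Q) : cc hR γ (io δ) = (co hR γ δ : ℂ) := by
  conv_rhs => rw [eq_sum δ, map_sum]
  simp only [map_smul]
  simp [cc, Fintype.linearCombination_apply, io]

theorem cc_inj : Function.Injective (cc hR) := fun γ δ h => by
  have h1 : ∀ x, co hR γ x = co hR δ x := fun x => by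
    have := congrArg (· (io x)) h
    simp only [cc_io] at this
    exact_mod_cast this
  have h2 : R.B δ δ • γ.1 = R.B γ γ • δ.1 := by
    by_contra c
    have h3 := hR.B_pos (sub_ne_zero.2 c)
    have h4 : ∀ x, R.B (R.B δ δ • γ.1 - R.B γ γ • δ.1) x = 0 := fun x => by
      have a := co_B hR γ x
      have b := co_B hR δ x
      rw [sub_eq_add_neg, hR.B_add, hR.B_neg, hR.B_smul, hR.B_smul, hR.B_comm γ.1 x,
        hR.B_comm δ.1 x]
      rw [h1] at a
      have : 2 * (R.B δ δ * R.B x γ + -(R.B γ γ * R.B x δ)) = 0 := by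
        linear_combination R.B γ γ * b - R.B δ δ * a
      omega
    exact h3.ne' (h4 _)
  rcases hR.reduced γ.2 δ.2 (BB hR δ).ne' h2 with e | e
  · exact Subtype.ext e
  · have a := h1 γ
    rw [co_self, e, map_neg, co_self] at a
    omega

theorem span_top : Submodule.span ℂ (range fun γ : R.Φ => io γ.1) = ⊤ :=
  top_unique ((Pi.basisFun ℂ (Fin R.r)).span_eq.ge.trans (Submodule.span_mono (by
    rintro _ ⟨i, rfl⟩
    exact ⟨al hR i, (io_α i).trans (Pi.basisFun_apply _ _ _).symm⟩)))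

theorem maps (γ : R.Φ) : MapsTo (preReflection (io γ.1) ((Dual.eval ℂ _).flip (cc hR γ)))
    (range fun γ : R.Φ => io γ.1) (range fun γ : R.Φ => io γ.1) := by
  rintro _ ⟨δ, rfl⟩
  refine ⟨⟨_, co_mem hR γ δ.2⟩, ?_⟩
  refine (io_sub _ _ _).trans ?_
  rw [preReflection_apply, ← cc_io]
  rfl

/-- the root system -/
noncomputable def rp : RootPairing R.Φ ℂ (Fin R.r → ℂ) (Dual ℂ (Fin R.r → ℂ)) :=
  RootPairing.mk'' (Dual.eval ℂ _) ⟨fun γ => io γ.1, io_inj.comp Subtype.val_injective⟩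
    ⟨cc hR, cc_inj hR⟩ (fun γ => (cc_io hR γ γ).trans (by rw [co_self]; rfl)) (maps hR) (span_top hR)

theorem rp_root (γ : R.Φ) : (rp hR).root γ = io γ.1 := rfl

theorem rp_pair (γ δ : R.Φ) : (rp hR).pairing γ δ = (co hR δ γ : ℂ) := cc_io hR δ γ

theorem rp_sys : (rp hR).IsRootSystem :=
  RootPairing.isRootSystem_mk'' fun γ δ => ⟨_, (cc_io hR δ γ).symm⟩

theorem rp_cry : (rp hR).IsCrystallographic := ⟨fun γ δ => ⟨_, (rp_pair hR γ δ).symm⟩⟩

theorem rp_red : (rp hR).IsReduced := ⟨fun γ δ h => by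
  have h0 : (rp hR).root δ ≠ 0 := (rp hR).ne_zero δ
  rw [LinearIndependent.pair_symm_iff, LinearIndependent.pair_iff' h0] at h
  push Not at h
  obtain ⟨a, ha⟩ := h
  have h1 : a * 2 = (co hR δ γ : ℂ) := by
    have := congrArg (cc hR δ) ha
    rwa [map_smul, rp_root, rp_root, cc_io, cc_io, co_self, smul_eq_mul, Int.cast_ofNat] at this
  have h2 : (2 : ℤ) • γ.1 = co hR δ γ • δ.1 := funext fun j => by
    have : a * (δ.1 j : ℂ) = γ.1 j := congrFun ha j
    have h3 : ((2 * γ.1 j : ℤ) : ℂ) = (co hR δ γ * δ.1 j : ℤ) := by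
      push_cast
      rw [← h1, ← this]
      ring
    exact Int.cast_injective h3
  rcases hR.reduced γ.2 δ.2 two_ne_zero h2 with e | e
  · exact Or.inl (congrArg io e)
  · refine Or.inr ((congrArg io e).trans (funext fun j => ?_))
    simp [io, rp_root]⟩

theorem rp_irr : (rp hR).IsIrreducible := by
  have : Nonempty (Fin R.r) := ⟨⟨0, hR.pos⟩⟩
  refine RootPairing.IsIrreducible.mk' _ fun q hq h0 => ?_
  have k : ∀ x ∈ q, ∀ i, cc hR (al hR i) x ≠ 0 → io (R.α i) ∈ q := fun x hx i c => by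
    have h1 : x - cc hR (al hR i) x • io (R.α i) ∈ q := hq (al hR i) hx
    have := sub_mem hx h1
    rwa [sub_sub_cancel, q.smul_mem_iff c] at this
  obtain ⟨x, hx, h1⟩ := (Submodule.ne_bot_iff q).1 h0
  obtain ⟨i, hi⟩ : ∃ i, cc hR (al hR i) x ≠ 0 := by
    by_contra c
    push Not at c
    refine h1 (eq_zero_of_vecMul_eq_zero (M := (Int.castRingHom ℂ).mapMatrix R.A) (by
      rw [← RingHom.map_det]; exact Int.cast_ne_zero.2 hR.det) (funext fun i => ?_))
    have := c i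
    simp only [cc, Fintype.linearCombination_apply, co_al, pr_α] at this
    exact this
  have h2 : ∀ j, io (R.α j) ∈ q := fun j => hR.conn (fun j => io (R.α j) ∈ q) i j (k x hx i hi)
    fun i j hi c => k _ hi j (by
      rw [cc_io, co_al, pr_α]
      exact Int.cast_ne_zero.2 (mt hR.A_zero_comm.1 c))
  refine top_unique ((Pi.basisFun ℂ (Fin R.r)).span_eq.ge.trans (Submodule.span_le.2 ?_))
  rintro _ ⟨j, rfl⟩
  rw [Pi.basisFun_apply, ← io_α]
  exact h2 j

theorem al_inj : Function.Injective (al hR) := fun _ _ h => α_inj (congrArg Subtype.val h)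

theorem mem_cl {δ : R.Q} (h : 0 ≤ δ) :
    io δ ∈ AddSubmonoid.closure ((rp hR).root '' range (al hR)) := by
  have : io δ = ∑ j, (δ j).toNat • io (R.α j) := by
    ext j
    have : ((δ j).toNat : ℂ) = δ j := by exact_mod_cast Int.toNat_of_nonneg (h j)
    simp [io_α, Finset.sum_apply, Pi.single_apply, io, this]
  rw [this]
  exact sum_mem fun j _ => AddSubmonoid.nsmul_mem _
    (AddSubmonoid.subset_closure (Set.mem_image_of_mem _ (Set.mem_range_self (f := al hR) j))) _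

/-- the base -/
theorem ex_base : letI := rp_cry hR
    ∃ (b : (rp hR).Base) (ε : Fin R.r ≃ b.support), ∀ i j, b.cartanMatrix (ε i) (ε j) = R.A i j := by
  letI := rp_cry hR
  letI := rp_sys hR
  letI := rp_red hR
  let b : (rp hR).Base := RootPairing.Base.mk' _ (range (al hR)) (by
      refine (linearIndepOn_range_iff (al_inj hR) _).2 ?_
      rw [show (rp hR).root ∘ al hR = Pi.basisFun ℂ (Fin R.r) from
        funext fun i => (io_α i).trans (Pi.basisFun_apply _ _ _).symm]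
      exact (Pi.basisFun ℂ (Fin R.r)).linearIndependent) fun γ =>
    (hR.sign _ γ.2).2.imp (mem_cl hR) fun c => by
      have := mem_cl hR (neg_nonneg.2 c)
      convert this using 1
      ext j
      simp [io, rp_root]
  have m : ∀ γ, γ ∈ b.support ↔ γ ∈ range (al hR) := fun γ => Set.Finite.mem_toFinset _
  refine ⟨b, Equiv.ofBijective (fun i => ⟨al hR i, (m _).2 ⟨i, rfl⟩⟩)
    ⟨fun _ _ h => al_inj hR (congrArg Subtype.val h), fun γ => ((m _).1 γ.2).imp fun _ h =>
      Subtype.ext h⟩, fun i j => Int.cast_injective (α := ℂ) ?_⟩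
  refine (b.algebraMap_cartanMatrixIn_apply ℤ _ _).trans ((rp_pair hR _ _).trans ?_)
  exact congrArg _ ((co_al hR j _).trans (R.pr_α i j))

end Vale.Agent.P011IE
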